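import Vale.Agent.P217.Torsion.Roots
import Mathlib.FieldTheory.Finiteness
import Mathlib.LinearAlgebra.Dimension.Finrank
import Mathlib.Data.ZMod.Basic
import Mathlib.Algebra.Module.ZMod
import Mathlib.Algebra.Field.ZMod
import Mathlib.LinearAlgebra.Dimension.Free
import Mathlib.LinearAlgebra.Dimension.DivisionRing
import Mathlib.LinearAlgebra.Basis.VectorSpace
import Mathlib.LinearAlgebra.FreeModule.Basic

/-!
# P217: torsion and surjectivity of `theta` at a point of height `h`
-/

noncomputable section

set_option linter.unusedSectionVars false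

namespace Vale.Agent.P217.Torsion

open MvPowerSeries Finset Filter Topology Vale.Agent.P217.Theta

/-- Independent generators of a finite group of exponent `p`. -/
lemma exists_indep {p d : ℕ} [hp : Fact p.Prime] {V : Type} [AddCommGroup V] [Finite V]
    (hk : ∀ x : V, p • x = 0) (hc : Nat.card V = p ^ d) :
    ∃ b : Fin d → V, ∀ N : Fin d → ℕ, (∑ i, N i • b i) = 0 → ∀ i, p ∣ N i := by
  obtain ⟨_inst⟩ : Nonempty (Module (ZMod p) V) := ⟨AddCommGroup.zmodModule hk⟩
  have : Module.Finite (ZMod p) V := Module.Finite.of_finite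
  have h1 : Nat.card V = Nat.card (ZMod p) ^ Module.finrank (ZMod p) V :=
    Module.natCard_eq_pow_finrank
  rw [hc, Nat.card_zmod] at h1
  have hr : Module.finrank (ZMod p) V = d := (Nat.pow_right_injective hp.out.two_le h1).symm
  let b := Module.finBasisOfFinrankEq (ZMod p) V hr
  refine ⟨fun i => b i, fun N hN i => ?_⟩
  have h3 : (∑ i, (N i : ZMod p) • b i) = 0 := by simpa [Nat.cast_smul_eq_nsmul] using hN
  exact (ZMod.natCast_eq_zero_iff _ _).1
    (Fintype.linearIndependent_iff.1 b.linearIndependent _ h3 i)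

variable {p n h : ℕ} [hp : Fact p.Prime] {C : Type} [NontriviallyNormedField C]
  [IsUltrametricDist C] [CompleteSpace C] [CharP C p] [PerfectRing C p]

variable (T : Data p n h C)

/-- A compatible system of `[p]`-roots gives a point of the universal cover. -/
lemma Data.exists_lift (y : ℕ → Pt T.L) (hy : ∀ M, p • y (M + 1) = y M) :
    ∃ η : C, ‖η‖ < 1 ∧ ∀ M, thetaC p n T.u (root p η (n * M)) = (y M).val := by
  have hc0 := T.c_nonneg
  have hc1 := T.c_lt_one
  set s : ℕ → C := fun M => (y M).val ^ p ^ (n * M) with hsdef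
  have hstep : ∀ M, ‖s (M + 1) - s M‖ ≤ T.c ^ p ^ (n * M) := by
    intro M
    have h1 := T.setup.norm_pmul_p_sub (y (M + 1)).small
    have h2 : pmul (law p T.setup.v) p (y (M + 1)).val = (y M).val := by
      rw [← hy M, Pt.val_nsmul]
      rfl
    rw [h2, norm_sub_rev] at h1
    rw [hsdef]
    dsimp only
    rw [show p ^ (n * (M + 1)) = p ^ n * p ^ (n * M) by ring, pow_mul, ← sub_pow_char_pow,
      norm_pow]
    exact pow_le_pow_left₀ (norm_nonneg _) h1 _
  have hsub : ∀ M j, ‖s (M + j) - s M‖ ≤ T.c ^ p ^ (n * M) := by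
    intro M j
    induction j with
    | zero => simpa using pow_nonneg hc0 _
    | succ j ih =>
      refine norm_sub_trans ((hstep (M + j)).trans ?_) ih
      exact pow_le_pow_of_le_one hc0 hc1.le
        (Nat.pow_le_pow_right hp.out.pos (Nat.mul_le_mul_left n (Nat.le_add_right M j)))
  have hpow : ∀ M, T.c ^ p ^ (n * M) ≤ T.c ^ M := fun M =>
    pow_le_pow_of_le_one hc0 hc1.le
      ((Nat.lt_pow_self hp.out.one_lt).le.trans (Nat.pow_le_pow_right hp.out.pos
        (Nat.le_mul_of_pos_left M T.one_le_n)))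
  have hcauchy : CauchySeq s := by
    refine cauchySeq_of_le_tendsto_0 (fun N => T.c ^ N) (fun i j N hi hj => ?_)
      (tendsto_pow_atTop_nhds_zero_of_lt_one hc0 hc1)
    obtain ⟨i, rfl⟩ := Nat.exists_eq_add_of_le hi
    obtain ⟨j, rfl⟩ := Nat.exists_eq_add_of_le hj
    rw [dist_eq_norm]
    exact (norm_sub_trans (hsub N i)
      (by rw [norm_sub_rev]; exact hsub N j)).trans (hpow N)
  obtain ⟨η, hη⟩ := cauchySeq_tendsto_of_complete hcauchy
  have hclose : ∀ M, ‖η - s M‖ ≤ T.c ^ p ^ (n * M) := fun M =>
    le_of_tendsto ((hη.comp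
      (tendsto_atTop_mono (fun j => Nat.le_add_left j M) tendsto_id)).sub_const _).norm
      (Filter.Eventually.of_forall fun j => hsub M j)
  have hη1 : ‖η‖ < 1 := by
    rw [show η = (η - s 0) + s 0 by abel]
    refine (IsUltrametricDist.norm_add_le_max _ _).trans_lt (max_lt ?_ ?_)
    · refine ((hclose 0).trans_lt ?_)
      simpa using hc1
    · simpa [hsdef] using (y 0).small
  refine ⟨η, hη1, fun M => ?_⟩
  have hroot : ∀ K, ‖(y K).val - root p η (n * K)‖ ≤ T.c := fun K => by
    conv_lhs => rw [show (y K).val = root p (s K) (n * K) from (root_eq_iff.2 rfl).symm]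
    exact norm_root_sub_le hc0 (by rw [norm_sub_rev]; exact hclose K)
  have hJ : ∀ J, p ^ J • y (M + J) = y M := by
    intro J
    induction J with
    | zero => simp
    | succ J ih => rw [pow_succ, mul_nsmul', ← add_assoc, hy, ih]
  have hlim := T.setup.tendsto_of_close (η := root p η (n * M)) (norm_root_lt hη1 _)
    (z := fun J => (y (M + J)).val) (fun J => (y (M + J)).small) fun J => by
      rw [root_root, ← mul_add]
      exact hroot (M + J)
  refine tendsto_nhds_unique hlim (tendsto_const_nhds.congr fun J => ?_)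
  rw [← hJ J, Pt.val_nsmul]
  rfl

lemma Data.surjective [IsAlgClosed C] {y : C} (hy : ‖y‖ < 1) :
    ∃ η : C, ‖η‖ < 1 ∧ thetaC p n T.u η = y := by
  choose r hr using T.exists_div
  obtain ⟨η, hη, h⟩ := T.exists_lift (fun M => r^[M] (⟨y, hy⟩ : Pt T.L)) fun M => by
    rw [Function.iterate_succ_apply', hr]
  exact ⟨η, hη, by simpa [root_zero] using h 0⟩

lemma Data.exists_tate [IsAlgClosed C] :
    ∃ ξ : Fin (n - h) → C, IsTate p n (n - h) T.u ξ := by
  have : Finite T.kerP := Nat.finite_of_card_ne_zero
    (by rw [T.card_kerP]; exact pow_ne_zero _ hp.out.ne_zero)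
  obtain ⟨b, hb⟩ := exists_indep (fun x : T.kerP => Subtype.ext (T.mem_kerP.1 x.2)) T.card_kerP
  choose r hr using T.exists_div
  let Y : Fin (n - h) → ℕ → Pt T.L := fun i M => Nat.rec 0
    (fun K _ => r^[K] (b i : Pt T.L)) M
  have hY : ∀ i M, p • Y i (M + 1) = Y i M := fun i M => by
    cases M with
    | zero => exact T.mem_kerP.1 (b i).2
    | succ K =>
      change p • (r^[K + 1] _) = r^[K] _
      rw [Function.iterate_succ_apply', hr]
  choose ξ hξ hθ using fun i => T.exists_lift (Y i) (hY i)
  have hpowY : ∀ i J, p ^ J • Y i (J + 1) = Y i 1 := fun i J => by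
    induction J with
    | zero => simp
    | succ J ih => rw [pow_succ, mul_nsmul', hY, ih]
  have hind : ∀ M (N : Fin (n - h) → ℕ), (∑ i, N i • Y i M) = 0 → ∀ i, p ^ M ∣ N i := by
    intro M
    induction M with
    | zero => exact fun N _ i => by simp
    | succ M ih =>
      intro N hN
      have h1 : (∑ i, N i • (b i : Pt T.L)) = 0 := by
        have h2 := congrArg (p ^ M • ·) hN
        simp only [Finset.smul_sum, smul_zero] at h2
        rw [← h2]
        refine Finset.sum_congr rfl fun i _ => ?_
        rw [smul_comm, hpowY]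
        rfl
      have h5 : ∀ i, p ∣ N i := hb N (by
        apply Subtype.ext
        rw [AddSubgroup.val_finsetSum]
        simpa using h1)
      choose N' hN' using h5
      have h6 := ih N' (by
        rw [← hN]
        refine Finset.sum_congr rfl fun i _ => ?_
        rw [hN' i, mul_comm, mul_nsmul', hY])
      intro i
      rw [hN' i, pow_succ']
      exact Nat.mul_dvd_mul_left p (h6 i)
  refine ⟨ξ, ⟨hξ, fun i => ?_, fun M N hMN => hind M N (Pt.ext ?_)⟩⟩
  · simpa [root_zero, Y] using hθ i 0
  · rw [Pt.val_sum, Pt.val_zero, ← hMN]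
    refine congrArg _ (funext fun i => ?_)
    rw [Pt.val_nsmul, hθ i M]
    rfl

end Vale.Agent.P217.Torsion

namespace Vale.Agent.P217

/-- Torsion and surjectivity of `theta`. -/
theorem torsionTarget (hE : EvalTarget) (hL : LowDegreeTarget) : TorsionTarget := by
  intro p _ C _ _ _ _ _ _ n h u hu
  let T : Torsion.Data p n h C := ⟨hE, hL, u, hu⟩
  exact ⟨T.exists_tate, fun y hy => T.surjective hy⟩

end Vale.Agent.P217

end
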