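import Vale.Agent.P217.Theta.Target
import Vale.Agent.P217.Eval.Roots

/-!
# P217: roots of `[p] - y` at a point of height `h`
-/

noncomputable section

set_option linter.unusedSectionVars false

namespace Vale.Agent.P217.Torsion

open MvPowerSeries Finset Filter Topology Vale.Agent.P217.Theta

/-- The data of `TorsionTarget`. -/
structure Data (p n h : ℕ) [Fact p.Prime] (C : Type) [NontriviallyNormedField C]
    [IsUltrametricDist C] [CompleteSpace C] where
  hE : EvalTarget
  hL : LowDegreeTarget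
  u : Fin (n - 1) → C
  hu : HPoint n h u

variable {p n h : ℕ} [hp : Fact p.Prime] {C : Type} [NontriviallyNormedField C]
  [IsUltrametricDist C] [CompleteSpace C] [CharP C p] [PerfectRing C p]

variable (T : Data p n h C)

/-- The law of the fibre. -/
def Data.F : FormalGroup C := law p (vTuple n T.u)

lemma Data.exists_bound : ∃ c : ℝ, 0 ≤ c ∧ c < 1 ∧ ∀ i, ‖T.u i‖ ≤ c := by
  classical
  refine ⟨((univ.image fun i => ‖T.u i‖) ∪ {0}).max' (by simp), ?_, ?_, fun i => ?_⟩
  · exact Finset.le_max' _ _ (by simp)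
  · rw [Finset.max'_lt_iff]
    intro t ht
    simp only [Finset.mem_union, Finset.mem_image, Finset.mem_singleton] at ht
    rcases ht with ⟨i, -, rfl⟩ | rfl
    · exact T.hu.small i
    · exact one_pos
  · exact Finset.le_max' _ _ (by simp)

/-- The chosen bound on the parameters. -/
def Data.c : ℝ := T.exists_bound.choose

lemma Data.c_nonneg : 0 ≤ T.c := T.exists_bound.choose_spec.1

lemma Data.c_lt_one : T.c < 1 := T.exists_bound.choose_spec.2.1

lemma Data.norm_u_le (i : Fin (n - 1)) : ‖T.u i‖ ≤ T.c := T.exists_bound.choose_spec.2.2 i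

lemma Data.one_le_n (T : Data p n h C) : 1 ≤ n := T.hu.one_le.trans T.hu.lt.le

lemma Data.norm_p : ‖(p : C)‖ ≤ T.c := by simpa using T.c_nonneg

lemma Data.nearHonda : NearHonda n T.c (vTuple n T.u) :=
  nearHonda_vTuple T.c_nonneg T.c_lt_one.le T.norm_u_le

/-- The setup for `theta` with `ρ = id`. -/
def Data.setup : Setup p n C C where
  hE := T.hE
  hL := T.hL
  ρ := MonoidWithZeroHom.id C
  c := T.c
  hρ := ⟨T.c_nonneg, T.c_lt_one, fun _ => rfl, fun a b _ _ => by
    simpa using T.c_nonneg⟩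
  hpc := T.norm_p
  hn := T.one_le_n
  v := vTuple n T.u
  hv := T.nearHonda

/-- The law as a law with points. -/
def Data.L : PLaw C :=
  ⟨T.F, T.hE, intSer_law p T.nearHonda.le_one, law_isComm p _⟩

/-- The series `g` with `[p] z = g (z ^ (p ^ h))`. -/
def Data.g : PowerSeries C :=
  PowerSeries.mk fun j => PowerSeries.coeff (p ^ h * j) (pSer p T.F)

lemma Data.intSer_pSer : IntSer (pSer p T.F) :=
  intSer_mulSer T.hE (intSer_law p T.nearHonda.le_one) p

lemma Data.intSer_g : IntSer T.g :=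
  Eval.intSer_iff.2 fun j => by
    rw [Data.g, PowerSeries.coeff_mk]
    exact Eval.intSer_iff.1 T.intSer_pSer _

lemma Data.vTuple_low {i : ℕ} (h1 : 1 ≤ i) (h2 : i < h) : vTuple n T.u i = 0 := by
  unfold vTuple
  rw [dif_pos ⟨h1, h2.trans T.hu.lt⟩]
  exact T.hu.low _ (by simp only; omega)

lemma Data.coeff_one_g : PowerSeries.coeff 1 T.g = T.u ⟨h - 1, by
    have := T.hu.one_le; have := T.hu.lt; omega⟩ := by
  have hh := T.hu.one_le
  have hlt := T.hu.lt
  rw [Data.g, PowerSeries.coeff_mk, mul_one]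
  have h2 := (T.hL p C).2.1 (vTuple n T.u) h hh
  have hspan : Ideal.span (insert (p : C) (vTuple n T.u '' {i | 1 ≤ i ∧ i < h})) = ⊥ := by
    rw [Ideal.span_eq_bot]
    rintro x (rfl | ⟨i, ⟨hi1, hi2⟩, rfl⟩)
    · exact CharP.cast_eq_zero C p
    · exact T.vTuple_low hi1 hi2
  rw [hspan, Ideal.mem_bot, sub_eq_zero] at h2
  rw [Data.F, h2]
  unfold vTuple
  rw [dif_pos ⟨hh, hlt⟩]

lemma Data.pSer_support (m : ℕ) (hm : ¬ p ^ h ∣ m) : PowerSeries.coeff m (pSer p T.F) = 0 :=
  (T.hL p C).2.2.1 (vTuple n T.u) h inferInstance (fun _ h1 h2 => T.vTuple_low h1 h2) m hm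

lemma Data.constantCoeff_g : PowerSeries.constantCoeff T.g = 0 := by
  rw [← PowerSeries.coeff_zero_eq_constantCoeff, Data.g, PowerSeries.coeff_mk, mul_zero]
  rw [PowerSeries.coeff_zero_eq_constantCoeff]
  exact constantCoeff_mulSer T.F p

lemma Data.pmul_eq (z : C) : pmul T.F p z = ev1 (z ^ p ^ h) T.g := by
  rw [pmul, ← pSer, Eval.ev1_eq_tsum, Eval.ev1_eq_tsum]
  have hq : p ^ h ≠ 0 := pow_ne_zero h hp.out.ne_zero
  rw [← Function.Injective.tsum_eq (g := fun j => p ^ h * j)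
    (fun a b hab => Nat.eq_of_mul_eq_mul_left (Nat.pos_of_ne_zero hq) hab)]
  · exact tsum_congr fun j => by rw [Data.g, PowerSeries.coeff_mk, pow_mul]
  · intro m hm
    rw [Function.mem_support] at hm
    by_contra hne
    refine hm ?_
    rw [T.pSer_support m fun ⟨j, hj⟩ => hne ⟨j, hj.symm⟩, zero_mul]

/-- The Weierstrass degree. -/
def Data.P (_ : Data p n h C) : ℕ := p ^ (n - h)

lemma Data.one_lt_P : 1 < T.P :=
  Nat.one_lt_pow (by have := T.hu.lt; omega) hp.out.one_lt

lemma Data.coeff_g_sub (j : ℕ) :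
    ‖PowerSeries.coeff j T.g - (if j = T.P then 1 else 0)‖ ≤ T.c := by
  have h1 := norm_coeff_pSer_sub T.hL T.one_le_n T.c_nonneg T.c_lt_one T.norm_p T.nearHonda
    (p ^ h * j)
  rw [PowerSeries.coeff_X_pow] at h1
  have hiff : p ^ h * j = p ^ n ↔ j = T.P := by
    rw [show p ^ n = p ^ h * T.P by
      rw [Data.P, ← pow_add, Nat.add_sub_cancel' T.hu.lt.le]]
    exact Nat.mul_left_cancel_iff (pow_pos hp.out.pos h)
  rw [Data.g, PowerSeries.coeff_mk]
  simp only [hiff] at h1
  exact h1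

/-- `g - y`. -/
def Data.shift (y : C) : PowerSeries C := T.g + PowerSeries.C (-y)

lemma Data.intSer_C {y : C} (hy : ‖y‖ ≤ 1) : IntSer (PowerSeries.C y) :=
  Eval.intSer_iff.2 fun j => by
    rw [PowerSeries.coeff_C]
    split_ifs <;> simp [hy]

lemma Data.intSer_shift {y : C} (hy : ‖y‖ < 1) : IntSer (T.shift y) :=
  Eval.intSer_add T.intSer_g (Data.intSer_C (by rw [norm_neg]; exact hy.le))

lemma Data.shift_low {y : C} (hy : ‖y‖ < 1) (m : ℕ) (hm : m < T.P) :
    ‖PowerSeries.coeff m (T.shift y)‖ < 1 := by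
  rw [Data.shift, map_add, PowerSeries.coeff_C]
  refine (IsUltrametricDist.norm_add_le_max _ _).trans_lt (max_lt ?_ ?_)
  · have := T.coeff_g_sub m
    rw [if_neg hm.ne, sub_zero] at this
    exact this.trans_lt T.c_lt_one
  · split_ifs <;> simp [hy]

lemma Data.shift_top (y : C) : ‖PowerSeries.coeff T.P (T.shift y)‖ = 1 := by
  have hP := T.one_lt_P
  rw [Data.shift, map_add, PowerSeries.coeff_C, if_neg (by omega), add_zero]
  have h1 := T.coeff_g_sub T.P
  rw [if_pos rfl] at h1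
  rw [show PowerSeries.coeff T.P T.g = 1 + (PowerSeries.coeff T.P T.g - 1) by abel,
    IsUltrametricDist.norm_add_eq_max_of_norm_ne_norm, norm_one]
  · exact max_eq_left (h1.trans T.c_lt_one.le)
  · rw [norm_one]
    exact (h1.trans_lt T.c_lt_one).ne'

lemma Data.ev1_shift {y w : C} (hy : ‖y‖ < 1) (hw : ‖w‖ < 1) :
    ev1 w (T.shift y) = ev1 w T.g - y := by
  rw [Data.shift, ev1_def, ev_add T.hE (small_unit hw) T.intSer_g
    (Data.intSer_C (by rw [norm_neg]; exact hy.le))]
  exact (congrArg _ (ev_C T.hE (small_unit hw) () (-y))).trans (sub_eq_add_neg _ _).symm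

omit [CharP C p] [PerfectRing C p] in
lemma intSer_derivative {f : PowerSeries C} (hf : IntSer f) :
    IntSer (PowerSeries.derivative C f) :=
  Eval.intSer_iff.2 fun j => by
    rw [PowerSeries.coeff_derivative, norm_mul]
    refine mul_le_one₀ (Eval.intSer_iff.1 hf _) (norm_nonneg _) ?_
    exact_mod_cast IsUltrametricDist.norm_natCast_le_one C (j + 1)

omit [CharP C p] [PerfectRing C p] in
/-- Second order expansion. -/
lemma norm_ev1_taylor_le {f : PowerSeries C} (hf : IntSer f) {w t : C} (hw : ‖w‖ < 1)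
    (ht : ‖t‖ < 1) :
    ‖ev1 (w + t) f - ev1 w f - t * ev1 w (PowerSeries.derivative C f)‖ ≤ ‖t‖ ^ 2 := by
  have hwt : ‖w + t‖ < 1 := (IsUltrametricDist.norm_add_le_max _ _).trans_lt (max_lt hw ht)
  have hs : ∀ (g : PowerSeries C), IntSer g → ∀ z : C, ‖z‖ < 1 →
      HasSum (fun m => PowerSeries.coeff m g * z ^ m) (ev1 z g) := by
    intro g hg z hz
    have := (Eval.summable_tail hg hz 0).hasSum
    rw [Eval.ev1_eq_tsum]
    simpa using this
  have h1 := hs f hf (w + t) hwt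
  have h2 := hs f hf w hw
  have h3 := (hs _ (intSer_derivative hf) w hw).mul_left t
  have h4 := (hasSum_nat_add_iff' 1).2 (h1.sub h2)
  simp only [Finset.range_one, Finset.sum_singleton, pow_zero, sub_self, sub_zero] at h4
  refine le_of_tendsto (h4.sub h3).norm (Filter.Eventually.of_forall fun S => ?_)
  refine IsUltrametricDist.norm_sum_le_of_forall_le_of_nonneg (sq_nonneg _) fun m hm => ?_
  clear hm
  rw [PowerSeries.coeff_derivative,
    show PowerSeries.coeff (m + 1) f * (w + t) ^ (m + 1) -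
        PowerSeries.coeff (m + 1) f * w ^ (m + 1) -
        t * (PowerSeries.coeff (m + 1) f * ((m : C) + 1) * w ^ m) =
      PowerSeries.coeff (m + 1) f *
        ((w + t) ^ (m + 1) - w ^ (m + 1) - ((m : C) + 1) * w ^ m * t) by ring, norm_mul]
  refine (mul_le_of_le_one_left (norm_nonneg _) (Eval.intSer_iff.1 hf _)).trans ?_
  clear h3 h4 S
  induction m with
  | zero => simp
  | succ m ih =>
    rw [show (w + t) ^ (m + 1 + 1) - w ^ (m + 1 + 1) - (((m + 1 : ℕ) : C) + 1) * w ^ (m + 1) * t =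
      (w + t) * ((w + t) ^ (m + 1) - w ^ (m + 1) - ((m : C) + 1) * w ^ m * t) +
        (((m + 1 : ℕ) : C) * w ^ m) * t ^ 2 by push_cast; ring]
    refine (IsUltrametricDist.norm_add_le_max _ _).trans (max_le ?_ ?_) <;> rw [norm_mul]
    · exact (mul_le_of_le_one_left (norm_nonneg _) hwt.le).trans ih
    · rw [norm_pow t]
      refine mul_le_of_le_one_left (sq_nonneg _) ?_
      rw [norm_mul, norm_pow]
      exact mul_le_one₀ (IsUltrametricDist.norm_natCast_le_one C _) (pow_nonneg (norm_nonneg _) _)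
        (pow_le_one₀ (norm_nonneg _) hw.le)

lemma Data.derivative_ne {w : C} (hw : ‖w‖ < 1) :
    ev1 w (PowerSeries.derivative C T.g) ≠ 0 := by
  intro h0
  set uh := T.u ⟨h - 1, by have := T.hu.one_le; have := T.hu.lt; omega⟩ with huh
  have hupos : 0 < ‖uh‖ := norm_pos_iff.2 T.hu.ne
  have hu1 : ‖uh‖ < 1 := T.hu.small _
  obtain ⟨e, he0, heu⟩ := NormedField.exists_norm_lt C hupos
  have he1 : ‖e‖ < 1 := heu.trans hu1
  have hF : IntSer T.F.toPowerSeries := intSer_law p T.nearHonda.le_one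
  have ha := norm_root_lt (p := p) hw h
  have hb := norm_root_lt (p := p) he1 h
  set z := padd T.F (root p w h) (root p e h) with hz
  have hd : ‖z ^ p ^ h - w‖ = ‖e‖ := by
    conv_lhs => rw [← root_pow (p := p) w h, ← sub_pow_char_pow, norm_pow, hz,
      norm_padd_sub_self T.hE hF (law_isComm p _) ha hb, ← norm_pow, root_pow]
  have hval : ev1 (z ^ p ^ h) T.g = padd T.F (ev1 w T.g) (ev1 e T.g) := by
    rw [← T.pmul_eq, hz]
    refine (pmul_padd T.L ha hb p).trans ?_
    change padd T.F (pmul T.F p _) (pmul T.F p _) = _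
    rw [T.pmul_eq, T.pmul_eq, root_pow, root_pow]
  have hgw : ‖ev1 w T.g‖ < 1 :=
    (norm_ev1_le T.hE hw T.intSer_g T.constantCoeff_g).trans_lt hw
  have hge : ‖ev1 e T.g‖ < 1 :=
    (norm_ev1_le T.hE he1 T.intSer_g T.constantCoeff_g).trans_lt he1
  have hlhs : ‖ev1 (z ^ p ^ h) T.g - ev1 w T.g‖ = ‖ev1 e T.g‖ := by
    rw [hval]
    exact norm_padd_sub_self T.hE hF (law_isComm p _) hgw hge
  have hsmall : ‖ev1 (z ^ p ^ h) T.g - ev1 w T.g‖ ≤ ‖e‖ ^ 2 := by
    have := norm_ev1_taylor_le T.intSer_g hw (t := z ^ p ^ h - w) (by rw [hd]; exact he1)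
    rwa [add_sub_cancel, h0, mul_zero, sub_zero, hd] at this
  have hbig : ‖ev1 e T.g‖ = ‖uh‖ * ‖e‖ := by
    have := norm_ev1_taylor_le T.intSer_g (w := 0) (t := e) (by simp) he1
    have hz0 : ∀ f : PowerSeries C, ev1 (0 : C) f = PowerSeries.constantCoeff f := fun f =>
      Eval.ev_zero f
    rw [zero_add, hz0, hz0, T.constantCoeff_g, sub_zero,
      ← PowerSeries.coeff_zero_eq_constantCoeff, PowerSeries.coeff_derivative,
      T.coeff_one_g, ← huh, Nat.cast_zero, zero_add, mul_one] at this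
    have hlt : ‖ev1 e T.g - e * uh‖ < ‖e * uh‖ := by
      refine this.trans_lt ?_
      rw [norm_mul, sq]
      exact mul_lt_mul_of_pos_left heu he0
    rw [show ev1 e T.g = e * uh + (ev1 e T.g - e * uh) by ring,
      IsUltrametricDist.norm_add_eq_max_of_norm_ne_norm hlt.ne', max_eq_left hlt.le, norm_mul,
      mul_comm]
  rw [hlhs, hbig, sq] at hsmall
  exact (mul_lt_mul_of_pos_right heu he0).not_ge hsmall

/-- The roots of `g - y` in the open disc. -/
lemma Data.exists_roots [IsAlgClosed C] {y : C} (hy : ‖y‖ < 1) :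
    ∃ s : Finset C, s.card = T.P ∧ ∀ w, w ∈ s ↔ ‖w‖ < 1 ∧ ev1 w T.g = y := by
  classical
  obtain ⟨hcard, hex⟩ := (T.hE C).2.2.2.2.2.1 (T.shift y) T.P (T.intSer_shift hy)
    (T.shift_low hy) (T.shift_top y)
  obtain ⟨s, hs, hroot⟩ := hex inferInstance fun w hw _ => by
    rw [Data.shift, map_add, PowerSeries.derivative_C, add_zero]
    exact T.derivative_ne hw
  refine ⟨s, hs, fun w => ⟨fun hw => ⟨(hroot w hw).1, ?_⟩, fun ⟨hw, hwy⟩ => ?_⟩⟩
  · have := (hroot w hw).2
    rwa [T.ev1_shift hy (hroot w hw).1, sub_eq_zero] at this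
  · by_contra hws
    have h1 := hcard (insert w s) fun z hz => by
      rcases Finset.mem_insert.1 hz with rfl | hz
      · exact ⟨hw, by rw [T.ev1_shift hy hw, hwy, sub_self]⟩
      · exact hroot z hz
    rw [Finset.card_insert_of_notMem hws] at h1
    omega

lemma Data.exists_div [IsAlgClosed C] (x : Pt T.L) : ∃ z : Pt T.L, p • z = x := by
  obtain ⟨s, hs, hmem⟩ := T.exists_roots x.small
  obtain ⟨w, hw⟩ := Finset.card_pos.1 (by rw [hs]; have := T.one_lt_P; omega : 0 < s.card)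
  refine ⟨⟨root p w h, norm_root_lt ((hmem w).1 hw).1 h⟩, Pt.ext ?_⟩
  rw [Pt.val_nsmul]
  change pmul T.F p _ = _
  rw [T.pmul_eq, root_pow]
  exact ((hmem w).1 hw).2

/-- The kernel of `[p]`. -/
def Data.kerP : AddSubgroup (Pt T.L) := (nsmulAddMonoidHom (α := Pt T.L) p).ker

lemma Data.mem_kerP {x : Pt T.L} : x ∈ T.kerP ↔ p • x = 0 := Iff.rfl

lemma Data.card_kerP [IsAlgClosed C] : Nat.card T.kerP = p ^ (n - h) := by
  obtain ⟨s, hs, hmem⟩ := T.exists_roots (y := 0) (by simp)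
  have hto : ∀ x : T.kerP, (x : Pt T.L).val ^ p ^ h ∈ s := fun x => by
    refine (hmem _).2 ⟨?_, ?_⟩
    · rw [norm_pow]
      exact pow_lt_one₀ (norm_nonneg _) (x : Pt T.L).small (pow_ne_zero h hp.out.ne_zero)
    · have h1 := congrArg Pt.val (T.mem_kerP.1 x.2)
      rw [Pt.val_nsmul, Pt.val_zero] at h1
      rw [← T.pmul_eq]
      exact h1
  have hb : Function.Bijective fun x : T.kerP =>
      (⟨(x : Pt T.L).val ^ p ^ h, hto x⟩ : {w // w ∈ s}) := by
    refine ⟨fun x y hxy => ?_, fun w => ?_⟩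
    · exact Subtype.ext (Pt.ext (pow_p_pow_injective h (congrArg Subtype.val hxy)))
    · have hw := (hmem w.1).1 w.2
      refine ⟨⟨⟨root p w.1 h, norm_root_lt hw.1 h⟩, ?_⟩, Subtype.ext (root_pow w.1 h)⟩
      rw [T.mem_kerP]
      apply Pt.ext
      rw [Pt.val_nsmul, Pt.val_zero]
      change pmul T.F p _ = _
      rw [T.pmul_eq, root_pow]
      exact hw.2
  rw [Nat.card_congr (Equiv.ofBijective _ hb), Nat.card_eq_fintype_card, Fintype.card_coe, hs,
    Data.P]

end Vale.Agent.P217.Torsion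

end
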